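import Vale.Agent.P092.H660.Re.Half
import Vale.Agent.P092.H701.Chain

/-!
P092, project RE (helper660): **[RE-C]**, the chain of commuting directions with ping-pong
families of a noncompact simple real group.
-/

set_option linter.all false

open Matrix Filter Topology MeasureTheory

namespace Vale.Agent.P092.H660.Re

open Vale.Agent.P092.H793.Re (Mat SLn Lie Sr)
open Vale.Agent.P092.H701 (HChain)

variable {n : ℕ}

section mat

theorem exp_smul_diagonal (t : ℝ) (x : Fin n → ℝ) :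
    (NormedSpace.exp (t • diagonal x) : Mat n) = diagonal fun a => Real.exp (t * x a) := by
  have h : t • diagonal x = diagonal fun a => t * x a := by
    ext i j
    by_cases hij : i = j
    · subst hij; simp
    · simp [Matrix.diagonal_apply_ne _ hij]
  rw [h, Matrix.exp_diagonal]
  congr 1
  funext a
  rw [Pi.coe_exp, Real.exp_eq_exp_ℝ]

theorem continuous_exp_smul (X : Mat n) :
    Continuous fun s : ℝ => (NormedSpace.exp (s • X) : Mat n) := by
  refine continuous_pi fun a => continuous_pi fun b => ?_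
  exact continuous_iff_continuousAt.2 fun t => (hasDerivAt_exp_entry X t a b).continuousAt

open scoped Matrix.Norms.Operator in
theorem commute_exp {X Y : Mat n} (h : Commute X Y) (s t : ℝ) :
    Commute (NormedSpace.exp (s • X) : Mat n) (NormedSpace.exp (t • Y)) :=
  ((h.smul_left s).smul_right t).exp

end mat

/-- the linear map of a ping-pong word -/
noncomputable def Lw (s t r c : ℝ) (hr : r ≠ 0) (hc : c ≠ 0) : (ℝ × ℝ) ≃ₗ[ℝ] (ℝ × ℝ) where
  toFun v := (r * (c * v.1) - t * (r * (v.2 - s * v.1)), r * (v.2 - s * v.1))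
  invFun u := ((u.1 + t * u.2) / (r * c), u.2 / r + s * ((u.1 + t * u.2) / (r * c)))
  map_add' u v := by
    refine Prod.ext ?_ ?_
    · simp only [Prod.fst_add, Prod.snd_add]; ring
    · simp only [Prod.fst_add, Prod.snd_add]; ring
  map_smul' d v := by
    refine Prod.ext ?_ ?_
    · simp only [Prod.smul_fst, Prod.smul_snd, smul_eq_mul, RingHom.id_apply]; ring
    · simp only [Prod.smul_fst, Prod.smul_snd, smul_eq_mul, RingHom.id_apply]; ring
  left_inv v := by
    refine Prod.ext ?_ ?_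
    · simp only
      field_simp
      ring
    · simp only
      field_simp
      ring
  right_inv u := by
    refine Prod.ext ?_ ?_
    · simp only
      field_simp
      ring
    · simp only
      field_simp
      ring

/-- the cone around the direction `(-t, 1)` -/
def Cm (δ t : ℝ) : Set (ℝ × ℝ) := {v | |v.1 + t * v.2| ≤ δ * |v.2|}

/-- the cone around the direction `(1, s)` -/
def Cp (δ s : ℝ) : Set (ℝ × ℝ) := {v | |v.2 - s * v.1| ≤ δ * |v.1|}

theorem isClosed_Cm (δ t : ℝ) : IsClosed (Cm δ t) :=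
  isClosed_le (by fun_prop) (by fun_prop)

theorem isClosed_Cp (δ s : ℝ) : IsClosed (Cp δ s) :=
  isClosed_le (by fun_prop) (by fun_prop)

theorem Cm_inter {δ t t' : ℝ} (h : 2 * δ < |t - t'|) : Cm δ t ∩ Cm δ t' ⊆ {0} := by
  rintro ⟨v1, v2⟩ ⟨h1, h2⟩
  simp only [Cm, Set.mem_setOf_eq] at h1 h2
  have h3 : |t - t'| * |v2| ≤ 2 * δ * |v2| := by
    rw [← abs_mul]
    have h4 : (t - t') * v2 = (v1 + t * v2) - (v1 + t' * v2) := by ring
    rw [h4]
    exact (abs_sub _ _).trans (by linarith)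
  have h5 : |v2| = 0 := by
    by_contra h6
    have h7 : 0 < |v2| := lt_of_le_of_ne (abs_nonneg _) (Ne.symm h6)
    have h8 := mul_lt_mul_of_pos_right h h7
    linarith
  rw [h5, mul_zero] at h1
  have h6 : v2 = 0 := abs_eq_zero.1 h5
  have h7 : v1 + t * v2 = 0 := abs_eq_zero.1 (le_antisymm h1 (abs_nonneg _))
  rw [h6, mul_zero, add_zero] at h7
  rw [Set.mem_singleton_iff]
  exact Prod.ext h7 h6

theorem Cp_inter {δ t t' : ℝ} (h : 2 * δ < |t - t'|) : Cp δ t ∩ Cp δ t' ⊆ {0} := by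
  rintro ⟨v1, v2⟩ ⟨h1, h2⟩
  simp only [Cp, Set.mem_setOf_eq] at h1 h2
  have h3 : |t - t'| * |v1| ≤ 2 * δ * |v1| := by
    rw [← abs_mul]
    have h4 : (t - t') * v1 = (v2 - t' * v1) - (v2 - t * v1) := by ring
    rw [h4]
    exact (abs_sub _ _).trans (by linarith)
  have h5 : |v1| = 0 := by
    by_contra h6
    have h7 : 0 < |v1| := lt_of_le_of_ne (abs_nonneg _) (Ne.symm h6)
    have h8 := mul_lt_mul_of_pos_right h h7
    linarith
  rw [h5, mul_zero] at h1
  have h6 : v1 = 0 := abs_eq_zero.1 h5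
  have h7 : v2 - t * v1 = 0 := abs_eq_zero.1 (le_antisymm h1 (abs_nonneg _))
  rw [h6, mul_zero, sub_zero] at h7
  rw [Set.mem_singleton_iff]
  exact Prod.ext h6 h7

theorem Lw_symm_mem {s t r c δ : ℝ} (hr : 0 < r) (hc : 0 < c) (hδ : 0 < δ) (hcδ : c ≤ δ ^ 2)
    (v : ℝ × ℝ) (hv : v ∉ Cm δ t) : (Lw s t r c hr.ne' hc.ne').symm v ∈ Cp δ s := by
  have h1 : δ * |v.2| < |v.1 + t * v.2| := not_le.1 hv
  change |v.2 / r + s * ((v.1 + t * v.2) / (r * c)) - s * ((v.1 + t * v.2) / (r * c))| ≤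
    δ * |(v.1 + t * v.2) / (r * c)|
  rw [add_sub_cancel_right, abs_div, abs_div, abs_of_pos hr, abs_of_pos (mul_pos hr hc)]
  rw [div_le_iff₀ hr]
  have h2 : δ * (|v.1 + t * v.2| / (r * c)) * r = δ * |v.1 + t * v.2| / c := by
    field_simp
  rw [h2, le_div_iff₀ hc]
  calc |v.2| * c ≤ |v.2| * δ ^ 2 := mul_le_mul_of_nonneg_left hcδ (abs_nonneg _)
    _ = δ * (δ * |v.2|) := by ring
    _ ≤ δ * |v.1 + t * v.2| := mul_le_mul_of_nonneg_left h1.le hδ.le

/-- The action of the ping-pong word on the polynomial family. -/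
theorem zt_word {E : Mat n} {y : Fin n → ℝ} {a : Fin n} {m : ℕ} (h : Tri E y)
    (ha : ∀ b, y b ≤ y a) (hm : y a = m) (hm0 : 0 < m) (h1 : str E a (m + 1) = 0)
    {x : Fin n → ℝ} {c : ℝ} (hx : ∀ i j, E i j ≠ 0 → x i - x j = c) (s t : ℝ) :
    ∃ (r : ℝ) (hr : 0 < r), ∀ v, zt E a m v ᵥ*
      ((NormedSpace.exp (s • Eᵀ) : Mat n) * (diagonal fun b => Real.exp (x b)) *
        (NormedSpace.exp (t • E) : Mat n)) =
      zt E a m (Lw s t r (Real.exp (-c)) hr.ne' (Real.exp_pos _).ne' v) := by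
  refine ⟨Real.exp (x a / m), Real.exp_pos _, fun v => ?_⟩
  have hr : Real.exp (x a) = Real.exp (x a / m) ^ m := by
    rw [← Real.exp_nat_mul]
    congr 1
    have : (m : ℝ) ≠ 0 := Nat.cast_ne_zero.2 hm0.ne'
    field_simp
  rw [← Matrix.vecMul_vecMul, ← Matrix.vecMul_vecMul, zt_F h ha hm, zt_diag hx, hr, ← zt_smul,
    zt_E h1]
  rfl

/-- **[RE-C]**, core: the chain. -/
theorem exists_chain {G : Type} [Group G] [TopologicalSpace G] {ρ : G →* SLn n}
    (hρ : IsClosedEmbedding ρ) {h : Fin n → ℝ} {r : ℕ} {p q : Fin r → Fin n}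
    {w : Fin r → Fin n → ℝ} {E : Fin r → Mat n} (hS : Sr ρ h p q w E)
    (hbr : ∀ X Y, Lie ρ X → Lie ρ Y → Lie ρ (X * Y - Y * X)) (htr : ∀ X, Lie ρ X → Lie ρ Xᵀ) :
    letI : MeasurableSpace G := borel G
    ∃ C : HChain G r, ∀ hn : 0 < r, Tendsto (C.b ⟨0, hn⟩) atTop (cocompact G) := by
  classical
  letI : MeasurableSpace G := borel G
  haveI : BorelSpace G := ⟨rfl⟩
  set mt : G → Mat n := fun g => (ρ g).1 with hmt
  have hemb : IsClosedEmbedding mt :=
    (Matrix.SpecialLinearGroup.isClosedEmbedding_val (n := Fin n) (R := ℝ)).comp hρ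
  have hmul : ∀ g g', mt (g * g') = mt g * mt g' := fun g g' => by
    simp [hmt]
  have hone : mt 1 = 1 := by simp [hmt]
  have hinv : ∀ g, mt g * mt g⁻¹ = 1 := fun g => by rw [← hmul, mul_inv_cancel, hone]
  have hinj : Function.Injective mt := hemb.injective
  -- weights
  have hwt : ∀ (x : Fin n → ℝ), Lie ρ (diagonal x) → ∀ j i k, E j i k ≠ 0 →
      x i - x k = x (p j) - x (q j) := by
    intro x hx j i k hik
    have h1 := congrFun (congrFun (hS.Ew j x hx) i) k
    rw [Matrix.sub_apply, Matrix.diagonal_mul, Matrix.mul_diagonal, Matrix.smul_apply,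
      smul_eq_mul] at h1
    have h2 : (x i - x k - (x (p j) - x (q j))) * E j i k = 0 := by linarith
    rcases mul_eq_zero.1 h2 with h3 | h3
    · linarith
    · exact absurd h3 hik
  -- the elements
  have hb0 : ∀ j (N : ℕ), ∃ g : G, mt g = diagonal fun a => Real.exp (N * w j a) := by
    intro j N
    obtain ⟨g, hg⟩ := hS.wl j N
    exact ⟨g, hg.trans (exp_smul_diagonal _ _)⟩
  choose b hb using hb0
  have hE0 : ∀ j (s : ℝ), ∃ g : G, mt g = NormedSpace.exp (s • E j) := fun j s => hS.El j s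
  have hF0 : ∀ j (s : ℝ), ∃ g : G, mt g = NormedSpace.exp (s • (E j)ᵀ) := fun j s =>
    htr _ (hS.El j) s
  let K : Fin r → Set G := fun j => mt ⁻¹' ((fun s : ℝ => (NormedSpace.exp (s • E j) : Mat n)) ''
    Set.Icc 0 1 ∪ (fun s : ℝ => (NormedSpace.exp (s • (E j)ᵀ) : Mat n)) '' Set.Icc 0 1)
  have hK : ∀ j, IsCompact (K j) := fun j => hemb.isCompact_preimage
    ((isCompact_Icc.image (continuous_exp_smul _)).union
      (isCompact_Icc.image (continuous_exp_smul _)))
  have hcomE : ∀ i j, i ≠ j → Commute (diagonal (w i)) (E j) := by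
    intro i j hij
    have h1 := hS.Ew j (w i) (hS.wl i)
    rw [hS.dual j i, if_neg (Ne.symm hij), zero_smul] at h1
    exact sub_eq_zero.1 h1
  have hcomF : ∀ i j, i ≠ j → Commute (diagonal (w i)) (E j)ᵀ := by
    intro i j hij
    have h1 := congrArg Matrix.transpose (hcomE i j hij).eq
    rw [Matrix.transpose_mul, Matrix.transpose_mul, Matrix.diagonal_transpose] at h1
    exact h1.symm
  -- the triples
  have htri : ∀ j, ∃ y : Fin n → ℝ, Tri (E j) y := by
    intro j
    obtain ⟨y, hy, hy2⟩ := hS.Eh j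
    have hly : Lie ρ (diagonal y) := by
      rw [← hy]
      exact hbr _ _ (hS.El j) (htr _ (hS.El j))
    refine ⟨y, hy, fun i k hik => ?_, fun h0 => ?_⟩
    · rw [hwt y hly j i k hik, hy2]
    · rw [h0] at hy2
      simp at hy2
  refine ⟨{ b := b, K := K, compact := hK, comm_b := ?_, comm_K := ?_, pp := ?_ }, ?_⟩
  · intro i j _ N M
    refine hinj ?_
    rw [hmul, hmul, hb, hb, Matrix.diagonal_mul_diagonal, Matrix.diagonal_mul_diagonal]
    congr 1
    funext a
    ring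
  · intro i j hij N x hx
    refine hinj ?_
    rw [hmul, hmul, hb, ← exp_smul_diagonal]
    rcases hx with ⟨s, -, hs⟩ | ⟨s, -, hs⟩
    · rw [← hs]
      exact (commute_exp (hcomE i j hij.ne) _ _).eq
    · rw [← hs]
      exact (commute_exp (hcomF i j hij.ne) _ _).eq
  · intro j P
    obtain ⟨y, hy⟩ := htri j
    obtain ⟨a, ha, ha0⟩ := hy.exists_top
    obtain ⟨m, hm0, hm, hs1, hs0⟩ := hy.exists_len ha ha0
    set δ : ℝ := 1 / (4 * (P + 1)) with hδ
    have hP : (0 : ℝ) < P + 1 := Nat.cast_add_one_pos P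
    have hδ0 : 0 < δ := by positivity
    have hlim : Tendsto (fun N : ℕ => Real.exp (-(N : ℝ))) atTop (𝓝 0) :=
      (Real.tendsto_exp_neg_atTop_nhds_zero).comp tendsto_natCast_atTop_atTop
    obtain ⟨N₀, hN₀⟩ := (hlim.eventually_le_const (show (0 : ℝ) < δ ^ 2 by positivity)).exists_forall_of_atTop
    refine ⟨N₀, fun N hN => ?_⟩
    let t : Fin P → ℝ := fun l => (l : ℕ) / (P + 1 : ℝ)
    have ht : ∀ l, t l ∈ Set.Icc (0 : ℝ) 1 := by
      intro l
      refine ⟨by positivity, ?_⟩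
      rw [div_le_one hP]
      have : ((l : ℕ) : ℝ) ≤ P := by exact_mod_cast l.2.le
      linarith
    have htt : ∀ l l', l ≠ l' → 2 * δ < |t l - t l'| := by
      intro l l' hll
      have h1 : t l - t l' = (((l : ℕ) : ℝ) - ((l' : ℕ) : ℝ)) / (P + 1) := by
        simp only [t]; ring
      have h2 : (1 : ℝ) ≤ |((l : ℕ) : ℝ) - ((l' : ℕ) : ℝ)| := by
        have h3 : ((l : ℕ) : ℤ) - ((l' : ℕ) : ℤ) ≠ 0 := by
          intro h4
          apply hll
          apply Fin.ext
          omega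
        have h5 := Int.one_le_abs h3
        exact_mod_cast h5
      rw [h1, abs_div, abs_of_pos hP, hδ, lt_div_iff₀ hP]
      have h3 : 2 * (1 / (4 * ((P : ℝ) + 1))) * (P + 1) = 1 / 2 := by field_simp; norm_num
      rw [h3]
      linarith
    choose κ' hκ' using fun l => hE0 j (t l)
    choose κ hκ using fun l => hF0 j (t l)
    refine ⟨κ, κ', fun l => {g | mt g ∈ Hf (E j) a m (Cm δ (t l))},
      fun l => {g | mt g ∈ Hf (E j) a m (Cp δ (t l))}, fun l => ?_, fun l => ?_, fun l => ?_,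
      fun l => ?_, fun l l' hll => ?_, fun l l' hll => ?_, fun l x hx => ?_⟩
    · exact Or.inr ⟨t l, ht l, (hκ l).symm⟩
    · exact Or.inl ⟨t l, ht l, (hκ' l).symm⟩
    · exact measurableSet_Hf hemb.continuous (isClosed_Cm _ _).measurableSet
    · exact measurableSet_Hf hemb.continuous (isClosed_Cp _ _).measurableSet
    · refine Set.disjoint_left.2 fun g hg hg' => ?_
      refine Hf_disjoint hy hm0 hs0 (isClosed_Cm _ _) (isClosed_Cm _ _) (Cm_inter (htt l l' hll))
        (1, 0) (fun c hc hh => ?_) (fun c hc hh => ?_) (hinv g) hg hg'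
      · simp only [Cm, Set.mem_setOf_eq, mul_one, mul_zero, add_zero, abs_zero] at hh
        exact absurd (abs_pos.2 hc.ne') (not_lt.2 hh)
      · simp only [Cm, Set.mem_setOf_eq, mul_one, mul_zero, add_zero, abs_zero] at hh
        exact absurd (abs_pos.2 hc.ne') (not_lt.2 hh)
    · refine Set.disjoint_left.2 fun g hg hg' => ?_
      refine Hf_disjoint hy hm0 hs0 (isClosed_Cp _ _) (isClosed_Cp _ _) (Cp_inter (htt l l' hll))
        (0, 1) (fun c hc hh => ?_) (fun c hc hh => ?_) (hinv g) hg hg'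
      · simp only [Cp, Set.mem_setOf_eq, mul_one, mul_zero, sub_zero, abs_zero] at hh
        exact absurd (abs_pos.2 hc.ne') (not_lt.2 hh)
      · simp only [Cp, Set.mem_setOf_eq, mul_one, mul_zero, sub_zero, abs_zero] at hh
        exact absurd (abs_pos.2 hc.ne') (not_lt.2 hh)
    · change mt (κ l * b j N * κ' l * x) ∈ Hf (E j) a m (Cp δ (t l))
      rw [hmul, hmul, hmul, hκ, hκ', hb]
      have hxw : ∀ i k, E j i k ≠ 0 → (N : ℝ) * w j i - (N : ℝ) * w j k = N := by
        intro i k hik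
        have h1 := hwt (w j) (hS.wl j) j i k hik
        rw [hS.dual j j, if_pos rfl] at h1
        rw [← mul_sub, h1, mul_one]
      obtain ⟨ρr, hρr, hz⟩ := zt_word hy ha hm hm0 hs1 (x := fun i => (N : ℝ) * w j i) hxw (t l)
        (t l)
      refine Hf_step (L := Lw (t l) (t l) ρr (Real.exp (-(N : ℝ))) hρr.ne' (Real.exp_pos _).ne')
        hz (isClosed_Cm δ (t l)).measurableSet
        (Lw_symm_mem hρr (Real.exp_pos _) hδ0 (hN₀ N hN)) ?_ hx
      exact volume_Dr_lt_top hy hm0 hs0 (hinv x)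
  · intro hn
    have hcont : Continuous fun g : G => mt g (p ⟨0, hn⟩) (p ⟨0, hn⟩) *
        (mt g).adjugate (q ⟨0, hn⟩) (q ⟨0, hn⟩) := by
      have h1 : Continuous mt := hemb.continuous
      have h2 : Continuous fun g => (mt g).adjugate := h1.matrix_adjugate
      exact (h1.matrix_elem _ _).mul (h2.matrix_elem _ _)
    have hval : ∀ N : ℕ, mt (b ⟨0, hn⟩ N) (p ⟨0, hn⟩) (p ⟨0, hn⟩) *
        (mt (b ⟨0, hn⟩ N)).adjugate (q ⟨0, hn⟩) (q ⟨0, hn⟩) = Real.exp N := by
      intro N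
      have h1 : mt (b ⟨0, hn⟩ N) * (mt (b ⟨0, hn⟩ N)).adjugate = 1 := by
        rw [Matrix.mul_adjugate]
        have h2 : (mt (b ⟨0, hn⟩ N)).det = 1 := (ρ (b ⟨0, hn⟩ N)).2
        rw [h2, one_smul]
      have h3 := congrFun (congrFun h1 (q ⟨0, hn⟩)) (q ⟨0, hn⟩)
      rw [hb, Matrix.diagonal_mul, Matrix.one_apply_eq, ← hb] at h3
      have h4 : (mt (b ⟨0, hn⟩ N)).adjugate (q ⟨0, hn⟩) (q ⟨0, hn⟩) =
          Real.exp (-(N * w ⟨0, hn⟩ (q ⟨0, hn⟩))) := by
        rw [Real.exp_neg]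
        exact eq_inv_of_mul_eq_one_right h3
      rw [h4, hb, Matrix.diagonal_apply_eq, ← Real.exp_add]
      congr 1
      have h5 := hS.dual ⟨0, hn⟩ ⟨0, hn⟩
      rw [if_pos rfl] at h5
      calc (N : ℝ) * w ⟨0, hn⟩ (p ⟨0, hn⟩) + -(N * w ⟨0, hn⟩ (q ⟨0, hn⟩))
          = N * (w ⟨0, hn⟩ (p ⟨0, hn⟩) - w ⟨0, hn⟩ (q ⟨0, hn⟩)) := by ring
        _ = N := by rw [h5, mul_one]
    refine Filter.hasBasis_cocompact.tendsto_right_iff.2 fun S hS' => ?_
    obtain ⟨B, hB⟩ := (hS'.image hcont).bddAbove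
    have hev : ∀ᶠ N : ℕ in atTop, B < Real.exp N :=
      (Real.tendsto_exp_atTop.comp tendsto_natCast_atTop_atTop).eventually_gt_atTop B
    filter_upwards [hev] with N hN hc
    have h1 := hB ⟨_, hc, rfl⟩
    simp only at h1
    rw [hval] at h1
    linarith

end Vale.Agent.P092.H660.Re
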