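import Vale.Agent.P092.H660.Re.ChnC
import Vale.Agent.P092.H264.S2Sl

/-!
P092, project RE (helper660): **[RE-C]**, the literal.
-/

set_option linter.all false

namespace Vale.Agent.P092.H660.Re

open Vale.Agent.P092.H793.Re (Mat SLn Lie Sr RS Dg)

theorem chn {n : ℕ} {G : Type} [Group G] [TopologicalSpace G] {ρ : G →* SLn n}
    (hρ : RS ρ) {h : Fin n → ℝ} {r : ℕ} {p q : Fin r → Fin n} {w : Fin r → Fin n → ℝ}
    {E : Fin r → Mat n} (hS : Sr ρ h p q w E) : H264.Chn G r :=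
  exists_chain_rs hρ hS

/-- the block of project RE -/
theorem chnB : ∀ {n : ℕ} {G : Type} [Group G] [TopologicalSpace G] (ρ : G →* SLn n)
    (h : Fin n → ℝ) {r : ℕ} (p q : Fin r → Fin n) (w : Fin r → Fin n → ℝ) (E : Fin r → Mat n),
    RS ρ → Dg ρ h → Sr ρ h p q w E → H264.Chn G r := by
  intro n G _ _ ρ h r p q w E hρ _ hS
  exact chn hρ hS

end Vale.Agent.P092.H660.Re
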