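import Vale.Agent.P092.H660.Re.Chain
import Vale.Agent.P092.H793.Re.L

/-!
P092, project RE (helper660): **[RE-C]** for self-adjoint realisations (light version; the
conclusion is `H264.Chn G r` literally).
-/

set_option linter.all false

open Matrix Filter Topology MeasureTheory

namespace Vale.Agent.P092.H660.Re

open Vale.Agent.P092.H793.Re (Mat SLn Lie Sr RS)
open Vale.Agent.P092.H701 (HChain)

theorem exists_chain_rs {n : ℕ} {G : Type} [Group G] [TopologicalSpace G] {ρ : G →* SLn n}
    (hρ : RS ρ) {h : Fin n → ℝ} {r : ℕ} {p q : Fin r → Fin n} {w : Fin r → Fin n → ℝ}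
    {E : Fin r → Mat n} (hS : Sr ρ h p q w E) :
    letI : MeasurableSpace G := borel G
    ∃ C : HChain G r, ∀ hn : 0 < r, Tendsto (C.b ⟨0, hn⟩) atTop (cocompact G) :=
  exists_chain hρ.emb hS (fun _ _ hX hY => H793.Re.lie_bracket hρ.emb hX hY)
    (fun _ hX => H793.Re.lie_transpose hρ.adj hX)

end Vale.Agent.P092.H660.Re
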