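import Vale.Agent.P092.H660.Re.Zeta

/-!
P092, project RE (helper660): half planes. For a matrix `M` let `D M = {v : ‖ζ(v) M‖ ≤ 1}`, a
region of finite area in the plane; `M` lies in `Hf C` if the cone `C` carries half of it.
-/

set_option linter.all false

open Matrix Filter Topology MeasureTheory

namespace Vale.Agent.P092.H660.Re

open Vale.Agent.P092.H793.Re (Mat)

variable {n : ℕ} {E : Mat n} {y : Fin n → ℝ} {a : Fin n} {m : ℕ}

/-- the unit region -/
def Dr (E : Mat n) (a : Fin n) (m : ℕ) (M : Mat n) : Set (ℝ × ℝ) :=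
  {v | ∀ b, |(zt E a m v ᵥ* M) b| ≤ 1}

/-- the matrices for which `C` carries half of the area -/
def Hf (E : Mat n) (a : Fin n) (m : ℕ) (C : Set (ℝ × ℝ)) : Set (Mat n) :=
  {M | volume (Dr E a m M) ≤ 2 * volume (Dr E a m M ∩ C)}

theorem continuous_ztM (b : Fin n) :
    Continuous fun p : Mat n × (ℝ × ℝ) => (zt E a m p.2 ᵥ* p.1) b := by
  change Continuous fun p : Mat n × (ℝ × ℝ) => ∑ i, zt E a m p.2 i * p.1 i b
  refine continuous_finsetSum _ fun i _ => ?_
  exact ((continuous_zt i).comp continuous_snd).mul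
    ((continuous_apply b).comp ((continuous_apply i).comp continuous_fst))

theorem isClosed_Dr (M : Mat n) : IsClosed (Dr E a m M) := by
  have h : Dr E a m M = ⋂ b, {v | |(zt E a m v ᵥ* M) b| ≤ 1} := by
    ext v; simp [Dr]
  rw [h]
  refine isClosed_iInter fun b => isClosed_le ?_ continuous_const
  exact ((continuous_ztM b).comp (Continuous.prodMk_right M)).abs

/-- the region is bounded -/
theorem volume_Dr_lt_top (h : Tri E y) (hm : 0 < m) (hs : str E a m ≠ 0) {M M' : Mat n}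
    (hM : M * M' = 1) : volume (Dr E a m M) < ⊤ := by
  obtain ⟨b, hb⟩ : ∃ b, str E a m b ≠ 0 := by
    by_contra hc
    push Not at hc
    exact hs (funext hc)
  set R0 : ℝ := ∑ i, ∑ j, |M' i j| with hR0
  have hbd : ∀ v ∈ Dr E a m M, ∀ j, |zt E a m v j| ≤ R0 := by
    intro v hv j
    have h1 : zt E a m v = (zt E a m v ᵥ* M) ᵥ* M' := by
      rw [Matrix.vecMul_vecMul, hM, Matrix.vecMul_one]
    have h2 : zt E a m v j = ∑ i, (zt E a m v ᵥ* M) i * M' i j := congrFun h1 j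
    rw [h2]
    refine (Finset.abs_sum_le_sum_abs _ _).trans (Finset.sum_le_sum fun i _ => ?_)
    rw [abs_mul]
    calc |(zt E a m v ᵥ* M) i| * |M' i j| ≤ 1 * |M' i j| :=
          mul_le_mul_of_nonneg_right (hv i) (abs_nonneg _)
      _ = |M' i j| := one_mul _
      _ ≤ ∑ j, |M' i j| := Finset.single_le_sum (f := fun j => |M' i j|)
          (fun j _ => abs_nonneg _) (Finset.mem_univ j)
  set c : ℝ := |str E a m b / (m.factorial : ℝ)| with hc
  have hc0 : 0 < c := abs_pos.2 (div_ne_zero hb (Nat.cast_ne_zero.2 (Nat.factorial_ne_zero m)))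
  have hpow : ∀ x R : ℝ, |x| ^ m ≤ R → |x| ≤ max 1 R := by
    intro x R hx
    rcases le_total (|x|) 1 with h1 | h1
    · exact h1.trans (le_max_left _ _)
    · exact ((le_self_pow₀ h1 hm.ne').trans hx).trans (le_max_right _ _)
  have hsub : Dr E a m M ⊆ Set.Icc (-(max 1 (R0 / c))) (max 1 (R0 / c)) ×ˢ
      Set.Icc (-(max 1 R0)) (max 1 R0) := by
    intro v hv
    have h1 : |v.2| ^ m ≤ R0 := by
      have h2 := hbd v hv a
      rwa [zt_top h, abs_pow] at h2
    have h3 : |v.1| ^ m ≤ R0 / c := by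
      have h2 := hbd v hv b
      rw [zt_bot h hb, abs_mul, abs_pow, abs_neg] at h2
      rwa [le_div_iff₀ hc0]
    exact ⟨abs_le.1 (hpow _ _ h3), abs_le.1 (hpow _ _ h1)⟩
  exact (measure_mono hsub).trans_lt (isCompact_Icc.prod isCompact_Icc).measure_lt_top

/-- a small multiple of every vector is an interior point of the region -/
theorem exists_small (hm : 0 < m) (M : Mat n) : ∃ U : Set (ℝ × ℝ), IsOpen U ∧
    U ⊆ Dr E a m M ∧ ∀ e : ℝ × ℝ, ∃ r : ℝ, 0 < r ∧ (r * e.1, r * e.2) ∈ U := by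
  let U : Set (ℝ × ℝ) := ⋂ b, {v | |(zt E a m v ᵥ* M) b| < 1}
  have hU : IsOpen U := isOpen_iInter_of_finite fun b => isOpen_lt
    ((continuous_ztM b).comp (Continuous.prodMk_right M)).abs continuous_const
  have h0 : ((0 : ℝ), (0 : ℝ)) ∈ U := by
    refine Set.mem_iInter.2 fun b => ?_
    have h1 := zt_smul (E := E) (a := a) (m := m) 0 (0, 0)
    rw [zero_pow hm.ne', zero_smul] at h1
    simp only [mul_zero] at h1
    change |(zt E a m (0, 0) ᵥ* M) b| < 1
    rw [h1, Matrix.zero_vecMul]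
    simp
  refine ⟨U, hU, fun v hv b => (Set.mem_iInter.1 hv b).le, fun e => ?_⟩
  have h2 : Continuous fun r : ℝ => (r * e.1, r * e.2) := by fun_prop
  have h3 : ∀ᶠ r in 𝓝 (0 : ℝ), (r * e.1, r * e.2) ∈ U := by
    refine h2.continuousAt.eventually_mem (hU.mem_nhds ?_)
    simpa using h0
  have h4 : ∀ᶠ r in 𝓝[>] (0 : ℝ), (r * e.1, r * e.2) ∈ U := h3.filter_mono nhdsWithin_le_nhds
  obtain ⟨r, hr, hr0⟩ := (h4.and self_mem_nhdsWithin).exists
  exact ⟨r, hr0, hr⟩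

/-- two closed cones which meet in the origin only and do not cover the plane -/
theorem Hf_disjoint (h : Tri E y) (hm : 0 < m) (hs : str E a m ≠ 0) {A B : Set (ℝ × ℝ)}
    (hA : IsClosed A) (hB : IsClosed B) (hAB : A ∩ B ⊆ {0}) (e : ℝ × ℝ)
    (heA : ∀ r : ℝ, 0 < r → (r * e.1, r * e.2) ∉ A) (heB : ∀ r : ℝ, 0 < r → (r * e.1, r * e.2) ∉ B)
    {M M' : Mat n} (hM : M * M' = 1) (h1 : M ∈ Hf E a m A) (h2 : M ∈ Hf E a m B) : False := by
  set D := Dr E a m M with hD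
  have hfin : volume D < ⊤ := volume_Dr_lt_top h hm hs hM
  obtain ⟨U, hU, hUD, hUe⟩ := exists_small (E := E) (a := a) hm M
  obtain ⟨r, hr, hrU⟩ := hUe e
  have hW : IsOpen (U ∩ (A ∪ B)ᶜ) := hU.inter (hA.union hB).isOpen_compl
  have hpos : 0 < volume (U ∩ (A ∪ B)ᶜ) := hW.measure_pos volume
    ⟨_, hrU, fun hc => hc.elim (heA r hr) (heB r hr)⟩
  have hmA : MeasurableSet (D ∩ A) := ((isClosed_Dr M).inter hA).measurableSet
  have hmB : MeasurableSet (D ∩ B) := ((isClosed_Dr M).inter hB).measurableSet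
  have h3 : volume (D ∩ A ∪ D ∩ B) = volume (D ∩ A) + volume (D ∩ B) := by
    refine measure_union₀ hmB.nullMeasurableSet ?_
    refine measure_mono_null (t := {0}) (fun v hv => hAB ⟨hv.1.2, hv.2.2⟩) ?_
    exact measure_singleton _
  have h4 : volume (D ∩ A ∪ D ∩ B) + volume (U ∩ (A ∪ B)ᶜ) ≤ volume D := by
    rw [← measure_union _ hW.measurableSet]
    · refine measure_mono ?_
      rintro v ((hv | hv) | hv)
      · exact hv.1
      · exact hv.1
      · exact hUD hv.1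
    · refine Set.disjoint_left.2 fun v hv hv' => ?_
      rcases hv with hv | hv
      · exact hv'.2 (Or.inl hv.2)
      · exact hv'.2 (Or.inr hv.2)
  have h5 : volume D ≤ volume (D ∩ A ∪ D ∩ B) := by
    rw [h3]
    have h6 : volume D + volume D ≤ 2 * (volume (D ∩ A) + volume (D ∩ B)) := by
      rw [mul_add]
      exact add_le_add h1 h2
    rw [← two_mul] at h6
    exact (ENNReal.mul_le_mul_iff_right (by norm_num) (by norm_num)).1 h6
  have h6 : volume (D ∩ A ∪ D ∩ B) ≤ volume D := measure_mono (by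
    rintro v (hv | hv)
    · exact hv.1
    · exact hv.1)
  have h7 : volume (D ∩ A ∪ D ∩ B) ≠ ⊤ := (h6.trans_lt hfin).ne
  have h8 : volume (D ∩ A ∪ D ∩ B) < volume (D ∩ A ∪ D ∩ B) + volume (U ∩ (A ∪ B)ᶜ) :=
    ENNReal.lt_add_right h7 hpos.ne'
  exact absurd (h8.trans_le (h4.trans h5)) (lt_irrefl _)

/-- ping-pong for half planes -/
theorem Hf_step {L : (ℝ × ℝ) ≃ₗ[ℝ] (ℝ × ℝ)} {K M : Mat n}
    (hL : ∀ v, zt E a m v ᵥ* K = zt E a m (L v)) {C C' : Set (ℝ × ℝ)} (hC : MeasurableSet C)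
    (hCC : ∀ v, v ∉ C → L.symm v ∈ C') (hfin : volume (Dr E a m M) < ⊤)
    (hM : M ∉ Hf E a m C) : K * M ∈ Hf E a m C' := by
  set D := Dr E a m M with hD
  have hDK : Dr E a m (K * M) = (L : (ℝ × ℝ) →ₗ[ℝ] (ℝ × ℝ)) ⁻¹' D := by
    ext v
    have h1 : zt E a m v ᵥ* (K * M) = zt E a m (L v) ᵥ* M := by
      rw [← Matrix.vecMul_vecMul, hL]
    simp only [Dr, hD, Set.mem_setOf_eq, Set.mem_preimage, h1]
    rfl
  have hdet : LinearMap.det (L : (ℝ × ℝ) →ₗ[ℝ] (ℝ × ℝ)) ≠ 0 :=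
    (LinearEquiv.isUnit_det' L).ne_zero
  have hvol : ∀ s : Set (ℝ × ℝ), volume ((L : (ℝ × ℝ) →ₗ[ℝ] (ℝ × ℝ)) ⁻¹' s) =
      ENNReal.ofReal |(LinearMap.det (L : (ℝ × ℝ) →ₗ[ℝ] (ℝ × ℝ)))⁻¹| * volume s := fun s =>
    Measure.addHaar_preimage_linearMap volume hdet s
  have h1 : volume D = volume (D ∩ C) + volume (D \ C) := (measure_inter_add_diff D hC).symm
  have h2 : 2 * volume (D ∩ C) < volume D := not_le.1 hM
  have h3 : volume D ≤ 2 * volume (D \ C) := by
    by_contra hc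
    rw [not_le] at hc
    have h4 : 2 * volume (D ∩ C) + 2 * volume (D \ C) < volume D + volume D :=
      ENNReal.add_lt_add h2 hc
    rw [← mul_add, ← h1, ← two_mul] at h4
    exact lt_irrefl _ h4
  change volume (Dr E a m (K * M)) ≤ 2 * volume (Dr E a m (K * M) ∩ C')
  rw [hDK]
  have h4 : (L : (ℝ × ℝ) →ₗ[ℝ] (ℝ × ℝ)) ⁻¹' (D \ C) ⊆
      (L : (ℝ × ℝ) →ₗ[ℝ] (ℝ × ℝ)) ⁻¹' D ∩ C' := by
    intro v hv
    refine ⟨hv.1, ?_⟩
    have h5 := hCC (L v) hv.2
    rwa [LinearEquiv.symm_apply_apply] at h5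
  calc volume ((L : (ℝ × ℝ) →ₗ[ℝ] (ℝ × ℝ)) ⁻¹' D)
      = ENNReal.ofReal |(LinearMap.det (L : (ℝ × ℝ) →ₗ[ℝ] (ℝ × ℝ)))⁻¹| * volume D := hvol D
    _ ≤ ENNReal.ofReal |(LinearMap.det (L : (ℝ × ℝ) →ₗ[ℝ] (ℝ × ℝ)))⁻¹| *
        (2 * volume (D \ C)) := by gcongr
    _ = 2 * volume ((L : (ℝ × ℝ) →ₗ[ℝ] (ℝ × ℝ)) ⁻¹' (D \ C)) := by rw [hvol]; ring
    _ ≤ 2 * volume ((L : (ℝ × ℝ) →ₗ[ℝ] (ℝ × ℝ)) ⁻¹' D ∩ C') := by gcongr

/-- measurability -/
theorem measurableSet_Hf {G : Type} [TopologicalSpace G] [MeasurableSpace G]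
    [OpensMeasurableSpace G] {f : G → Mat n} (hf : Continuous f) {C : Set (ℝ × ℝ)}
    (hC : MeasurableSet C) : MeasurableSet {g | f g ∈ Hf E a m C} := by
  have h00 : Continuous fun p : G × (ℝ × ℝ) => (f p.1, p.2) :=
    (hf.comp continuous_fst).prodMk continuous_snd
  have h0 : ∀ b, Continuous fun p : G × (ℝ × ℝ) => (zt E a m p.2 ᵥ* f p.1) b := by
    intro b
    have h01 := (continuous_ztM (E := E) (a := a) (m := m) b).comp h00
    simpa only [Function.comp_def] using h01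
  let S : Set (G × (ℝ × ℝ)) := {p | ∀ b, |(zt E a m p.2 ᵥ* f p.1) b| ≤ 1}
  have hS : IsClosed S := by
    have h : S = ⋂ b, {p | |(zt E a m p.2 ᵥ* f p.1) b| ≤ 1} := by
      ext v; simp [S]
    rw [h]
    exact isClosed_iInter fun b => isClosed_le (h0 b).abs continuous_const
  have hS1 : MeasurableSet S := hS.measurableSet
  have hS2 : MeasurableSet (S ∩ (Set.univ ×ˢ C)) := hS1.inter (MeasurableSet.univ.prod hC)
  have h1 : Measurable fun g => volume (Dr E a m (f g)) :=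
    measurable_measure_prodMk_left (ν := (volume : Measure (ℝ × ℝ))) hS1
  have h2 : Measurable fun g => volume (Dr E a m (f g) ∩ C) := by
    have h4 : (fun g => volume (Dr E a m (f g) ∩ C)) =
        fun g => volume (Prod.mk g ⁻¹' (S ∩ (Set.univ ×ˢ C))) := by
      funext g
      congr 1
      ext v
      simp [S, Dr]
    rw [h4]
    exact measurable_measure_prodMk_left hS2
  exact measurableSet_le h1 (h2.const_mul 2)

end Vale.Agent.P092.H660.Re
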