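import Mathlib
import Vale.Agent.P092.H793.Re.Defs

/-!
P092, project RE (helper660): the `SL_2`-string of a root vector, acting on row vectors, as
homogeneous polynomials in two variables.
-/

set_option linter.all false

open Matrix Filter Topology

namespace Vale.Agent.P092.H660.Re

open Vale.Agent.P092.H793.Re (Mat)

variable {n : ℕ}

section flow

open scoped Matrix.Norms.Operator in
/-- entries of the matrix exponential -/
theorem hasDerivAt_exp_entry (X : Mat n) (t : ℝ) (a b : Fin n) :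
    HasDerivAt (fun s : ℝ => (NormedSpace.exp (s • X) : Mat n) a b)
      ((X * NormedSpace.exp (t • X) : Mat n) a b) t := by
  have h := hasDerivAt_exp_smul_const' (𝕂 := ℝ) (𝔸 := Mat n) X t
  have h1 := (hasDerivAt_pi.1 h) a
  exact (hasDerivAt_pi.1 h1) b

theorem exp_neg_mul_exp (X : Mat n) (t : ℝ) :
    (NormedSpace.exp ((-t) • X) : Mat n) * NormedSpace.exp (t • X) = 1 := by
  rw [← Matrix.exp_add_of_commute, neg_smul, neg_add_cancel, NormedSpace.exp_zero]
  exact ((Commute.refl X).smul_left _).smul_right _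

/-- Linear flow of row vectors. -/
theorem flow (X : Mat n) (Z : ℝ → Fin n → ℝ)
    (h : ∀ t b, HasDerivAt (fun s => Z s b) ((Z t ᵥ* X) b) t) (t : ℝ) :
    Z t = Z 0 ᵥ* (NormedSpace.exp (t • X) : Mat n) := by
  have key : ∀ s, (Z s ᵥ* (NormedSpace.exp ((-s) • X) : Mat n)) = Z 0 := by
    intro s
    funext b
    let R : ℝ → ℝ := fun s => ∑ a, Z s a * (NormedSpace.exp ((-s) • X) : Mat n) a b
    have hR : ∀ s, HasDerivAt R 0 s := by
      intro s
      have h1 : ∀ a, HasDerivAt (fun s : ℝ => (NormedSpace.exp ((-s) • X) : Mat n) a b)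
          (-((X * NormedSpace.exp ((-s) • X) : Mat n) a b)) s := by
        intro a
        have h2 := (hasDerivAt_exp_entry X (-s) a b).comp s (hasDerivAt_neg s)
        simpa [Function.comp_def] using h2
      have h3 : HasDerivAt R (∑ a, ((Z s ᵥ* X) a * (NormedSpace.exp ((-s) • X) : Mat n) a b +
          Z s a * -((X * NormedSpace.exp ((-s) • X) : Mat n) a b))) s :=
        HasDerivAt.fun_sum fun a _ => (h s a).mul (h1 a)
      convert h3 using 1
      have h4 : ∑ a, (Z s ᵥ* X) a * (NormedSpace.exp ((-s) • X) : Mat n) a b =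
          ∑ a, Z s a * (X * NormedSpace.exp ((-s) • X) : Mat n) a b := by
        change ((Z s ᵥ* X) ᵥ* (NormedSpace.exp ((-s) • X) : Mat n)) b =
          (Z s ᵥ* (X * NormedSpace.exp ((-s) • X) : Mat n)) b
        rw [Matrix.vecMul_vecMul]
      rw [Finset.sum_add_distrib, h4, ← Finset.sum_add_distrib]
      symm
      refine Finset.sum_eq_zero fun a _ => ?_
      ring
    have hc : R s = R 0 := is_const_of_deriv_eq_zero (fun s => (hR s).differentiableAt)
      (fun s => (hR s).deriv) s 0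
    have h0 : R 0 = Z 0 b := by
      change (Z 0 ᵥ* (NormedSpace.exp ((-(0:ℝ)) • X) : Mat n)) b = Z 0 b
      rw [neg_zero, zero_smul, NormedSpace.exp_zero, Matrix.vecMul_one]
    change R s = Z 0 b
    rw [hc, h0]
  rw [← key t, Matrix.vecMul_vecMul, exp_neg_mul_exp, Matrix.vecMul_one]

end flow

/-! ### the string -/

/-- `sl_2` data: `E Eᵀ - Eᵀ E = diag y`, `[diag y, E] = 2 E`. -/
structure Tri (E : Mat n) (y : Fin n → ℝ) : Prop where
  hH : E * Eᵀ - Eᵀ * E = diagonal y
  hE : ∀ i j, E i j ≠ 0 → y i - y j = 2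
  y0 : y ≠ 0

/-- the vectors `η E^k` -/
def str (E : Mat n) (a : Fin n) (k : ℕ) : Fin n → ℝ := Pi.single a 1 ᵥ* E ^ k

theorem str_zero (E : Mat n) (a : Fin n) : str E a 0 = Pi.single a 1 := by
  simp [str]

theorem str_succ (E : Mat n) (a : Fin n) (k : ℕ) : str E a (k + 1) = str E a k ᵥ* E := by
  rw [str, str, pow_succ, Matrix.vecMul_vecMul]

theorem str_wt {E : Mat n} {x : Fin n → ℝ} {c : ℝ} (hx : ∀ i j, E i j ≠ 0 → x i - x j = c)
    (a : Fin n) (k : ℕ) : ∀ b, str E a k b ≠ 0 → x b = x a - k * c := by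
  induction k with
  | zero =>
    intro b hb
    rw [str_zero] at hb
    have : b = a := by
      by_contra h
      exact hb (Pi.single_eq_of_ne h 1)
    subst this
    simp
  | succ k ih =>
    intro b hb
    rw [str_succ] at hb
    have h1 : ∑ i, str E a k i * E i b ≠ 0 := hb
    obtain ⟨i, -, hi⟩ := Finset.exists_ne_zero_of_sum_ne_zero h1
    have h2 := ih i (left_ne_zero_of_mul hi)
    have h3 := hx i b (right_ne_zero_of_mul hi)
    push_cast
    linarith

namespace Tri

variable {E : Mat n} {y : Fin n → ℝ}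

theorem sum_eq_zero (h : Tri E y) : ∑ i, y i = 0 := by
  have h1 := congrArg Matrix.trace h.hH
  rw [Matrix.trace_sub, Matrix.trace_mul_comm, sub_self, Matrix.trace_diagonal] at h1
  exact h1.symm

/-- the highest coordinate -/
theorem exists_top (h : Tri E y) : ∃ a, (∀ b, y b ≤ y a) ∧ 0 < y a := by
  have hne : ∃ i, 0 < y i := by
    by_contra hc
    push Not at hc
    refine h.y0 (funext fun i => ?_)
    have h1 := (Finset.sum_eq_zero_iff_of_nonpos (s := Finset.univ) fun i _ => hc i).1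
      h.sum_eq_zero i (Finset.mem_univ i)
    exact h1
  obtain ⟨i, hi⟩ := hne
  haveI : Nonempty (Fin n) := ⟨i⟩
  obtain ⟨a, ha⟩ := Finite.exists_max y
  exact ⟨a, ha, hi.trans_le (ha i)⟩

theorem str_zero_F (h : Tri E y) {a : Fin n} (ha : ∀ b, y b ≤ y a) : str E a 0 ᵥ* Eᵀ = 0 := by
  rw [str_zero]
  funext b
  rw [Matrix.single_one_vecMul, Matrix.row_apply, Matrix.transpose_apply, Pi.zero_apply]
  by_contra hb
  have h1 := h.hE b a hb
  have h2 := ha b
  linarith

theorem str_H (h : Tri E y) (a : Fin n) (k : ℕ) :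
    str E a k ᵥ* diagonal y = (y a - 2 * k) • str E a k := by
  funext b
  rw [Matrix.vecMul_diagonal, Pi.smul_apply, smul_eq_mul]
  by_cases hb : str E a k b = 0
  · rw [hb]; ring
  · rw [str_wt h.hE a k b hb]; ring

theorem str_F (h : Tri E y) {a : Fin n} (ha : ∀ b, y b ≤ y a) (k : ℕ) :
    str E a (k + 1) ᵥ* Eᵀ = ((k + 1 : ℝ) * (y a - k)) • str E a k := by
  induction k with
  | zero =>
    have h1 : E * Eᵀ = Eᵀ * E + diagonal y := by rw [← h.hH]; abel
    rw [str_succ, Matrix.vecMul_vecMul, h1, Matrix.vecMul_add, ← Matrix.vecMul_vecMul,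
      h.str_zero_F ha, Matrix.zero_vecMul, zero_add, h.str_H]
    simp
  | succ k ih =>
    have h1 : E * Eᵀ = Eᵀ * E + diagonal y := by rw [← h.hH]; abel
    rw [str_succ, Matrix.vecMul_vecMul, h1, Matrix.vecMul_add, ← Matrix.vecMul_vecMul, ih,
      Matrix.smul_vecMul, ← str_succ, h.str_H, ← add_smul]
    congr 1
    push_cast
    ring

/-- the string is finite, of length the highest weight, which is a positive integer -/
theorem exists_len (h : Tri E y) {a : Fin n} (ha : ∀ b, y b ≤ y a) (ha0 : 0 < y a) :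
    ∃ m : ℕ, 0 < m ∧ y a = m ∧ str E a (m + 1) = 0 ∧ str E a m ≠ 0 := by
  classical
  have hex : ∃ k, str E a k = 0 := by
    by_contra hc
    push Not at hc
    have h1 : ∀ k : ℕ, ∃ b, str E a k b ≠ 0 := fun k => by
      by_contra h2
      push Not at h2
      exact hc k (funext h2)
    choose f hf using h1
    have h2 : Function.Injective f := by
      intro k l hkl
      have h3 := str_wt h.hE a k _ (hf k)
      have h4 := str_wt h.hE a l _ (hf l)
      rw [hkl] at h3
      have h5 : (k : ℝ) = l := by linarith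
      exact_mod_cast h5
    exact not_injective_infinite_finite f h2
  have h0 : str E a 0 ≠ 0 := by
    rw [str_zero]
    intro h1
    have h2 := congrFun h1 a
    simp at h2
  obtain ⟨m, hm⟩ : ∃ m, Nat.find hex = m + 1 := Nat.exists_eq_succ_of_ne_zero fun h1 => by
    have h2 := Nat.find_spec hex
    rw [h1] at h2
    exact h0 h2
  have hm1 : str E a (m + 1) = 0 := by rw [← hm]; exact Nat.find_spec hex
  have hm0 : str E a m ≠ 0 := Nat.find_min hex (by omega)
  have h2 := h.str_F ha m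
  rw [hm1, Matrix.zero_vecMul] at h2
  have h3 : (m + 1 : ℝ) * (y a - m) = 0 := by
    rcases smul_eq_zero.1 h2.symm with h3 | h3
    · exact h3
    · exact absurd h3 hm0
  have h4 : y a = m := by
    rcases mul_eq_zero.1 h3 with h5 | h5
    · exfalso
      have : (0 : ℝ) ≤ m := Nat.cast_nonneg m
      linarith
    · linarith
  refine ⟨m, ?_, h4, hm1, hm0⟩
  rw [h4] at ha0
  exact_mod_cast ha0

end Tri

/-! ### the polynomial family -/

/-- `ζ(v) = ∑ v₂^(m-k) (-v₁)^k / k! · η E^k` -/
noncomputable def zt (E : Mat n) (a : Fin n) (m : ℕ) (v : ℝ × ℝ) : Fin n → ℝ := fun b =>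
  ∑ k ∈ Finset.range (m + 1), v.2 ^ (m - k) * (-v.1) ^ k / (k.factorial : ℝ) * str E a k b

variable {E : Mat n} {y : Fin n → ℝ} {a : Fin n} {m : ℕ}

theorem zt_smul (c : ℝ) (v : ℝ × ℝ) : zt E a m (c * v.1, c * v.2) = c ^ m • zt E a m v := by
  funext b
  rw [Pi.smul_apply, smul_eq_mul, zt, zt, Finset.mul_sum]
  refine Finset.sum_congr rfl fun k hk => ?_
  have hk' : k ≤ m := Nat.lt_succ_iff.1 (Finset.mem_range.1 hk)
  have h1 : c ^ m = c ^ (m - k) * c ^ k := by rw [← pow_add, Nat.sub_add_cancel hk']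
  rw [h1, mul_pow, neg_mul_eq_mul_neg, mul_pow]
  ring

theorem continuous_zt (b : Fin n) : Continuous fun v : ℝ × ℝ => zt E a m v b := by
  unfold zt
  fun_prop

/-- the action of a diagonal element -/
theorem zt_diag {x : Fin n → ℝ} {c : ℝ} (hx : ∀ i j, E i j ≠ 0 → x i - x j = c) (v : ℝ × ℝ) :
    zt E a m v ᵥ* diagonal (fun b => Real.exp (x b)) =
      Real.exp (x a) • zt E a m (Real.exp (-c) * v.1, v.2) := by
  funext b
  rw [Matrix.vecMul_diagonal, Pi.smul_apply, smul_eq_mul, zt, zt, Finset.mul_sum, Finset.sum_mul]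
  refine Finset.sum_congr rfl fun k _ => ?_
  by_cases hb : str E a k b = 0
  · rw [hb]; ring
  · have h1 := str_wt hx a k b hb
    have h2 : Real.exp (x b) = Real.exp (x a) * Real.exp (-c) ^ k := by
      rw [← Real.exp_nat_mul, ← Real.exp_add, h1]
      congr 1
      ring
    rw [h2, neg_mul_eq_mul_neg, mul_pow]
    ring

/-- the action of `exp(tE)` -/
theorem zt_E (h1 : str E a (m + 1) = 0) (v : ℝ × ℝ) (t : ℝ) :
    zt E a m v ᵥ* (NormedSpace.exp (t • E) : Mat n) = zt E a m (v.1 - t * v.2, v.2) := by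
  have h := flow E (fun t => zt E a m (v.1 - t * v.2, v.2)) (fun t b => ?_) t
  · simp only [zero_mul, sub_zero] at h
    exact h.symm
  have h2 : ((fun b => zt E a m (v.1 - t * v.2, v.2) b) ᵥ* E) b =
      ∑ k ∈ Finset.range (m + 1), v.2 ^ (m - k) * (-(v.1 - t * v.2)) ^ k / (k.factorial : ℝ) *
        str E a (k + 1) b := by
    change ∑ i, zt E a m (v.1 - t * v.2, v.2) i * E i b = _
    simp only [zt, Finset.sum_mul]
    rw [Finset.sum_comm]
    refine Finset.sum_congr rfl fun k _ => ?_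
    rw [str_succ]
    change _ = _ * ∑ i, str E a k i * E i b
    rw [Finset.mul_sum]
    refine Finset.sum_congr rfl fun i _ => ?_
    ring
  have h3 : HasDerivAt (fun s => zt E a m (v.1 - s * v.2, v.2) b)
      (∑ k ∈ Finset.range (m + 1), v.2 ^ (m - k) *
        (k * (-(v.1 - t * v.2)) ^ (k - 1) * v.2) / (k.factorial : ℝ) * str E a k b) t := by
    unfold zt
    refine HasDerivAt.fun_sum fun k _ => ?_
    have h4 : HasDerivAt (fun s : ℝ => -(v.1 - s * v.2)) v.2 t := by
      have h5 := (((hasDerivAt_id t).mul_const v.2).const_sub v.1).fun_neg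
      simpa using h5
    have h5 : HasDerivAt (fun s : ℝ => (-(v.1 - s * v.2)) ^ k)
        (k * (-(v.1 - t * v.2)) ^ (k - 1) * v.2) t := h4.fun_pow k
    exact ((h5.const_mul (v.2 ^ (m - k))).div_const (k.factorial : ℝ)).mul_const (str E a k b)
  refine h3.congr_deriv ?_
  change _ = ((fun b => zt E a m (v.1 - t * v.2, v.2) b) ᵥ* E) b
  rw [h2, Finset.sum_range_succ' , Finset.sum_range_succ]
  have h6 : str E a (m + 1) b = 0 := by rw [h1]; rfl
  rw [h6]
  simp only [Nat.cast_zero, zero_mul, mul_zero, zero_div, add_zero]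
  refine Finset.sum_congr rfl fun k hk => ?_
  have hk' : k < m := Finset.mem_range.1 hk
  have h7 : m - k = (m - (k + 1)) + 1 := by omega
  rw [h7, pow_succ, Nat.factorial_succ, Nat.add_sub_cancel]
  have h8 : (k.factorial : ℝ) ≠ 0 := Nat.cast_ne_zero.2 (Nat.factorial_ne_zero k)
  have h9 : ((k : ℝ) + 1) ≠ 0 := Nat.cast_add_one_ne_zero k
  push_cast
  field_simp

/-- the action of `exp(tEᵀ)` -/
theorem zt_F (h : Tri E y) (ha : ∀ b, y b ≤ y a) (hm : y a = m) (v : ℝ × ℝ) (t : ℝ) :
    zt E a m v ᵥ* (NormedSpace.exp (t • Eᵀ) : Mat n) = zt E a m (v.1, v.2 - t * v.1) := by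
  have h0 := flow Eᵀ (fun t => zt E a m (v.1, v.2 - t * v.1)) (fun t b => ?_) t
  · simp only [zero_mul, sub_zero] at h0
    exact h0.symm
  have h2 : ((fun b => zt E a m (v.1, v.2 - t * v.1) b) ᵥ* Eᵀ) b =
      ∑ k ∈ Finset.range (m + 1), (v.2 - t * v.1) ^ (m - k) * (-v.1) ^ k / (k.factorial : ℝ) *
        (str E a k ᵥ* Eᵀ) b := by
    change ∑ i, zt E a m (v.1, v.2 - t * v.1) i * Eᵀ i b = _
    simp only [zt, Finset.sum_mul]
    rw [Finset.sum_comm]
    refine Finset.sum_congr rfl fun k _ => ?_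
    change _ = _ * ∑ i, str E a k i * Eᵀ i b
    rw [Finset.mul_sum]
    refine Finset.sum_congr rfl fun i _ => ?_
    ring
  have h3 : HasDerivAt (fun s => zt E a m (v.1, v.2 - s * v.1) b)
      (∑ k ∈ Finset.range (m + 1), ((m - k : ℕ) * (v.2 - t * v.1) ^ (m - k - 1) * (-v.1)) *
        (-v.1) ^ k / (k.factorial : ℝ) * str E a k b) t := by
    unfold zt
    refine HasDerivAt.fun_sum fun k _ => ?_
    have h4 : HasDerivAt (fun s : ℝ => v.2 - s * v.1) (-v.1) t := by
      have h5 := (((hasDerivAt_id t).mul_const v.1).const_sub v.2)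
      simpa using h5
    have h5 : HasDerivAt (fun s : ℝ => (v.2 - s * v.1) ^ (m - k))
        ((m - k : ℕ) * (v.2 - t * v.1) ^ (m - k - 1) * (-v.1)) t := h4.fun_pow (m - k)
    exact ((h5.mul_const ((-v.1) ^ k)).div_const (k.factorial : ℝ)).mul_const (str E a k b)
  refine h3.congr_deriv ?_
  change _ = ((fun b => zt E a m (v.1, v.2 - t * v.1) b) ᵥ* Eᵀ) b
  rw [h2, Finset.sum_range_succ, Finset.sum_range_succ' (n := m)]
  rw [h.str_zero_F ha]
  simp only [Nat.sub_self, Nat.cast_zero, zero_mul, mul_zero, zero_div, add_zero, Pi.zero_apply]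
  refine Finset.sum_congr rfl fun k hk => ?_
  have hk' : k < m := Finset.mem_range.1 hk
  rw [h.str_F ha, Pi.smul_apply, smul_eq_mul, hm, Nat.factorial_succ, Nat.cast_sub hk'.le,
    Nat.sub_sub]
  have h8 : (k.factorial : ℝ) ≠ 0 := Nat.cast_ne_zero.2 (Nat.factorial_ne_zero k)
  have h9 : ((k : ℝ) + 1) ≠ 0 := Nat.cast_add_one_ne_zero k
  push_cast
  rw [pow_succ]
  field_simp

/-- lower bounds -/
theorem zt_top (h : Tri E y) (v : ℝ × ℝ) : zt E a m v a = v.2 ^ m := by
  rw [zt, Finset.sum_eq_single 0]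
  · simp [str_zero]
  · intro k _ hk
    have h1 : str E a k a = 0 := by
      by_contra h2
      have h3 := str_wt h.hE a k a h2
      have h4 : (k : ℝ) = 0 := by linarith
      exact hk (by exact_mod_cast h4)
    rw [h1, mul_zero]
  · intro h1
    exact absurd (Finset.mem_range.2 (Nat.succ_pos m)) h1

theorem zt_bot (h : Tri E y) {b : Fin n} (hb : str E a m b ≠ 0) (v : ℝ × ℝ) :
    zt E a m v b = (-v.1) ^ m * (str E a m b / (m.factorial : ℝ)) := by
  rw [zt, Finset.sum_eq_single m]
  · rw [Nat.sub_self, pow_zero]; ring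
  · intro k _ hk
    have h1 : str E a k b = 0 := by
      by_contra h2
      have h3 := str_wt h.hE a k b h2
      have h4 := str_wt h.hE a m b hb
      have h5 : (k : ℝ) = m := by linarith
      exact hk (by exact_mod_cast h5)
    rw [h1, mul_zero]
  · intro h1
    exact absurd (Finset.mem_range.2 (Nat.lt_succ_self m)) h1

end Vale.Agent.P092.H660.Re
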